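import Vale.Agent.P156W.Main

open MeasureTheory Filter Vale.Agent.P156 Vale.Agent.P156W

/-- **Bulk GOE universality at every fixed bulk energy, for random `d`-regular graphs of every
fixed degree `d ≥ 3`, as convergence in law for the vague topology.**  The unfolded GOE point
measures converge in law, as random elements of the space `LF` of locally finite measures with the
vague topology, to a random point measure `Ξ`; the law of `Ξ` is the only limit law; and for every
`d ≥ 3` and every `E` in the open bulk the unfolded point measure at `E` of the uniform random
`d`-regular graph converges in law to `Ξ`, through all `n > d` with `nd` even. -/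
theorem Vale.Agent.Results.P156.AVagueLaw.result :
    ∃ (Ω : Type) (_ : MeasurableSpace Ω) (P : Measure Ω) (_ : IsProbabilityMeasure P)
      (Ξ : Ω → LF),
      (∀ ω, ∃ (κ : Set ℕ) (z : κ → ℝ), (Ξ ω).meas = Measure.sum fun k => Measure.dirac (z k)) ∧
      TendstoInDistribution goePt atTop Ξ goeLaw P ∧
      (∀ (S : Measure LF) [IsProbabilityMeasure S],
        TendstoInDistribution goePt atTop id goeLaw S → S = P.map Ξ) ∧
      ∀ d : ℕ, 3 ≤ d → ∀ E : ℝ, |E| < 2 * Real.sqrt (d - 1) →
        TendstoInDistribution (fun n : Adm d => graphPt n d E) (comap Subtype.val atTop) Ξ
          (fun n => graphLaw n d) P :=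
  main
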